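import Mathlib
import Vale.Agent.H21.P229Core

namespace Vale.Agent.Results.P229.Moulding

open scoped ContDiff Topology
open Vale.Agent.H21.P229

/-- Part 1: every smooth metric which near a point can be written as
`a(s)² ds² + (α(t) + β(t) ϖ(s))² dt²`, for smooth functions `s, t` of the point and arbitrary
smooth one-variable functions `a, ϖ, α, β`, is locally smoothly realizable at that point.
Part 2: every smooth metric whose coefficients depend on one coordinate only is locally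
smoothly realizable at every point. -/
theorem result :
    (∀ (Ω : Set Plane) (g : Plane → Matrix (Fin 2) (Fin 2) ℝ), IsSmoothMetricOn g Ω →
      ∀ p ∈ Ω, ∀ s t : Plane → ℝ, ContDiffOn ℝ ∞ s Ω → ContDiffOn ℝ ∞ t Ω →
      ∀ I J : Set ℝ, IsOpen I → IsOpen J → s p ∈ I → t p ∈ J →
      ∀ a ϖ α β : ℝ → ℝ, ContDiffOn ℝ ∞ a I → ContDiffOn ℝ ∞ ϖ I →
        ContDiffOn ℝ ∞ α J → ContDiffOn ℝ ∞ β J →
      (∀ᶠ x in 𝓝 p, ∀ i j, g x i j =
        a (s x) ^ 2 * (pd i s x * pd j s x) +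
          (α (t x) + β (t x) * ϖ (s x)) ^ 2 * (pd i t x * pd j t x)) →
      LocallyRealizableAt g p) ∧
    (∀ (Ω : Set Plane) (g : Plane → Matrix (Fin 2) (Fin 2) ℝ), IsSmoothMetricOn g Ω →
      (∀ x ∈ Ω, ∀ y ∈ Ω, x 0 = y 0 → g x = g y) →
      ∀ p ∈ Ω, LocallyRealizableAt g p) :=
  ⟨fun Ω g hg p hp s t hs ht I J hI hJ hpI hpJ a ϖ α β ha hϖ hα hβ h =>
    moulding Ω g hg p hp s t hs ht I J hI hJ hpI hpJ a ϖ α β ha hϖ hα hβ h,
   fun Ω g hg hinv p hp => killing Ω g hg hinv p hp⟩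

end Vale.Agent.Results.P229.Moulding
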